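import Vale.Agent.P305BD.Sto
import Vale.Agent.P305W.Tab
import Vale.Agent.P305X.Defs
import Vale.Agent.P305CV.Bridge

/-!
# Building a level: the static data and the statements of the blocks
-/

namespace Vale.Agent.P305BD

open Vale.Agent.P305E Vale.Agent.P305C Vale.Agent.P305M Vale.Agent.P305Q Vale.Agent.P305Y
open Vale.Agent.P305CV Vale.Agent.P305U Vale.Agent.P305X
open Vale.Agent.P305W (fta fhd fln fg)

/-- An item as an edge. -/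
def we (it : ℕ → RA) (z : ℕ) : WE := ((it z).1, (it z).2.1, (it z).2.2.1, z)

/-- The object number `i`. -/
def obj (L : LV) (i : ℕ) : Ob := L.obs.getD i ⟨0, none, 0, none, 0, 0⟩
/-- The walk data of an object. -/
def o4 (o : Ob) : O4 := (o.x, o.eo, o.z, o.y)
/-- Scale and ends of an object. -/
def e3 (L : LV) (o : Ob) : ℕ × ℕ × ℕ := (o.sc, L.a0 o, L.b0 o)

theorem obj_mem {L : LV} {i : ℕ} (h : i < L.obs.length) : obj L i ∈ L.obs := by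
  rw [obj, List.getD_eq_getElem _ _ h]; exact List.getElem_mem h

theorem exists_obj {L : LV} {o : Ob} (h : o ∈ L.obs) : ∃ i < L.obs.length, obj L i = o := by
  obtain ⟨i, hi, rfl⟩ := List.getElem_of_mem h
  exact ⟨i, hi, List.getD_eq_getElem _ _ hi⟩

/-- Routes `Pi` in the skeleton `Sk` for the objects `i < n` with scale and ends `es i`. -/
structure RwOK (es : ℕ → ℕ × ℕ × ℕ) (n γ Λ : ℕ) (Sk : List ℕ) (Pi : ℕ → SW) : Prop where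
  nd : Sk.Nodup
  sub : ∀ s ∈ Sk, s < n ∧ (es s).2.1 ≠ (es s).2.2
  walk : ∀ i < n, P305R.Walk (fun s => (es s).2) (es i).2.1 (Pi i) (es i).2.2
  skel : ∀ i < n, ∀ s ∈ Pi i, s.1 ∈ Sk ∧ (es s.1).1 = (es i).1
  hops : ∀ i < n, (Pi i).length ≤ γ
  load : ∀ s, ((List.range n).countP fun i => s ∈ (Pi i).map Prod.fst) ≤ Λ

/-- **The block RW** (the router on objects); input `((b, d, q, k, N), es)`. -/
def RW : Prop := ∃ (f : (ℕ × ℕ × ℕ × ℕ × ℕ) × List (ℕ × ℕ × ℕ) → M (List ℕ × Arr SW)) (c : ℕ),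
  Impl f ∧ ∀ (B e b d q k N X : ℕ) (es : List (ℕ × ℕ × ℕ)), 1 ≤ d → (b + 2) ^ d ≤ 2 ^ b →
    2 ^ b ≤ q ^ d → q ≤ 2 ^ b → 1 ≤ k → k ≤ 2 ^ b → e ≤ b → N ≤ 2 ^ (b + 1) → X ≤ 2 ^ (17 * b) →
    (∀ x ∈ es, x.1 ≤ 2 ^ b ∧ x.2.1 < N ∧ x.2.2 < N) → es.length ≤ X →
    (∀ T : Finset (ℕ × ℕ), (∀ p ∈ T, ∃ x ∈ es, x.2.1 ≠ x.2.2 ∧ p.1 = x.1 ∧
      (p.2 = x.2.1 ∨ p.2 = x.2.2)) → k * T.card ≤ X) → 2 ^ (c * (b + 1)) ≤ B →
    Vt e B (f ((b, d, q, k, N), es)) fun r s =>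
      RwOK (fun i => es.getD i (0, 0, 0)) es.length ((b + 2) ^ (c * d)) (((b + 2) * k) ^ (c * d))
        r.1 r.2.get ∧ k * r.1.length ^ 2 ≤ ((b + 2) ^ (c * d) * X) ^ 2 ∧
      s ≤ q * ((b + 2) * k) ^ (c * d) * (X + 1)

/-- **The block MID** (routes and compression); input `((b, d, q, k, N), S, L)`. -/
def MID : Prop := ∃ (f : (ℕ × ℕ × ℕ × ℕ × ℕ) × Sto × LV → M (Sto × List ℕ × List ℕ × Arr SW))
  (c : ℕ), Impl f ∧ ∀ (B e b d q k N J : ℕ) (S : Sto) (G : List ℕ) (PA R : ℕ → ℕ) (vs : List ℕ)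
    (cs : List (ℕ × Cl)) (L : LV), 1 ≤ d → (b + 2) ^ d ≤ 2 ^ b → 2 ^ b ≤ q ^ d → q ≤ 2 ^ b →
    1 ≤ k → k ≤ 2 ^ b → e ≤ b → N ≤ 2 ^ (b + 1) → 1 ≤ J → J ≤ (b + 3) ^ 2 →
    G.length ≤ 2 ^ b → S.2.2 ≤ 2 ^ b → vs.length ≤ 2 * G.length →
    (∀ z ∈ G, z < S.2.2 ∧ fln S.1.get z ≤ 2 ^ b ∧ (fg S.1.get z).natAbs ≤ 2 ^ b) →
    (∀ p ∈ cs, p.1 ≤ 2 ^ b) →
    In (fta S.1.get) (fhd S.1.get) (fln S.1.get) N J R vs (G.map (we S.1.get)) cs →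
    LvOK (fta S.1.get) (fhd S.1.get) (fln S.1.get) N k J PA R vs (G.map (we S.1.get)) cs L →
    2 ^ (c * (b + 1)) ≤ B → Vt e B (f ((b, d, q, k, N), S, L)) fun r t => ∃ Sk Pi own,
      RwOK (fun i => e3 L (obj L i)) L.obs.length ((b + 2) ^ (c * d)) (((b + 2) * k) ^ (c * d))
        Sk Pi ∧
      CompOK L.F.sp.get L.F.te.get (fun i => o4 (obj L i)) (fun i => L.a0 (obj L i))
        (fun i => L.b0 (obj L i)) Sk (List.range L.obs.length) Pi k ((b + 2) ^ (c * d)) S r.1 r.2.1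
        r.2.2.1 r.2.2.2.get own ∧
      k * (7 * Sk.length) ^ 2 ≤ ((b + 2) ^ (c * d) * G.length) ^ 2 ∧
      t + 6 * Sk.length ≤ q * ((b + 2) * k) ^ (c * d) * (G.length + 1)

end Vale.Agent.P305BD
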