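import Vale.Agent.P305BD.Main
import Vale.Agent.P305U.Main
import Vale.Agent.P305X.Mid
import Vale.Agent.P305RW.BD

/-!
# Building a level from the router
-/

namespace Vale.Agent.P305BD

/-- **The block BUILD** from the block ROUTE. -/
theorem build (h : P305R.ROUTE) : P305Y.BUILD :=
  build_of P305U.level (P305X.mid (P305RW.rw_bd h))

end Vale.Agent.P305BD
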