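import Vale.Agent.P305BD.Defs

/-!
# Building a level: covers and objects
-/

namespace Vale.Agent.P305BD

open Vale.Agent.P305E Vale.Agent.P305C Vale.Agent.P305M Vale.Agent.P305Q Vale.Agent.P305Y
open Vale.Agent.P305CV Vale.Agent.P305U Vale.Agent.P305X
open Vale.Agent.P305W (fta fhd fln fg)

/-- The input of the program for the objects. -/
abbrev LevI : Type := ℕ × ℕ × Arr ℕ × List ℕ × List WE × List (ℕ × Cl)

/-- The table of the scales. -/
def psP (b D : ℕ) : M (Arr ℕ) :=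
  iterM (fun (s : Arr ℕ × ℕ) i => num (s.2 * (16 * b + 16)) >>= fun x => num (i + 1) >>= fun j =>
    pure (s.1.set j x, x)) (Arr.const 1, 1) D >>= fun s => pure s.1

@[fun_prop] theorem impl_psP {α : Type} [Rep α] {b D : α → ℕ} (hb : Pure b) (hD : Pure D) :
    Impl fun a => psP (b a) (D a) := by
  unfold psP; fun_prop

theorem psP_tri {c : Cx} {b D : ℕ} (hB : PS b D + D ≤ c.B) :
    Tri c (psP b D) fun P t => (∀ s ≤ D, P.get s = PS b s) ∧ t ≤ D := by
  refine (Tri.iterM (fun i (s : Arr ℕ × ℕ) t => s.2 = PS b i ∧ (∀ j ≤ i, s.1.get j = PS b j) ∧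
    t = i) ⟨rfl, fun j hj => by obtain rfl : j = 0 := by omega
                                rfl, rfl⟩ ?_).bind ?_
  · rintro i s t hi ⟨h1, h2, rfl⟩
    have a := PS_mono b (show t + 1 ≤ D by omega)
    have a1 := PS_pos b D
    simp only [Tri_bind, Tri_num, Tri_pure, h1, ← PS_succ]
    refine ⟨by omega, by omega, trivial, fun j hj => ?_, trivial⟩
    rw [Arr.get_set]
    split_ifs with e
    · rw [e]
    · exact h2 j (by omega)
  · rintro s t ⟨-, h2, rfl⟩
    exact ⟨h2, le_rfl⟩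

/-- The covers and the objects; the result contains the number of clusters. -/
noncomputable def frontP (lev : LevI → M LV) (b D N k : ℕ) (it : Arr RA) (G : List ℕ) : M (ℕ × LV) :=
  mapP (we it.get) G >>= fun E => mcov b D E >>= fun o => psP b D >>= fun P =>
    lev (N, k, P, o.1, E, o.2) >>= fun L => lenP o.2 >>= fun n => pure (n, L)

theorem impl_frontP {lev : LevI → M LV} (hl : Impl lev) {α : Type} [Rep α] {b D N k : α → ℕ}
    {it : α → Arr RA} {G : α → List ℕ} (hb : Pure b) (hD : Pure D) (hN : Pure N) (hk : Pure k)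
    (hi : Pure it) (hG : Pure G) :
    Impl fun a => frontP lev (b a) (D a) (N a) (k a) (it a) (G a) := by
  unfold frontP we; fun_prop

variable {ta hd len : ℕ → ℕ} {N k J : ℕ} {P P' R : ℕ → ℕ} {vs : List ℕ} {E : List WE}
  {cs : List (ℕ × Cl)} {L : LV}

theorem sc_le {D : ℕ} (h : LvOK ta hd len N k J P R vs E cs L) (hs : ∀ p ∈ cs, p.1 ≤ D) {j u : ℕ}
    (hm : Mem cs j u) : L.sc.get j ≤ D := by
  obtain ⟨p, hp, -⟩ := hm
  rw [(h.info j p hp).1]
  exact hs p (List.mem_of_getElem? hp)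

theorem osc_le {D : ℕ} (h : LvOK ta hd len N k J P R vs E cs L) (hs : ∀ p ∈ cs, p.1 ≤ D) {o : Ob}
    (ho : o ∈ L.obs) : o.sc ≤ D := by
  rcases (h.obs o).1 ho with ⟨e, -, j, hj, rfl⟩ | ⟨u, j, j', hj, -, -, rfl⟩ | ⟨u, j, j', hj, -, rfl⟩
  exacts [sc_le h hs hj.1, sc_le h hs hj.2.1, sc_le h hs hj.2.1]

theorem lvOK_congr {D : ℕ} (h : LvOK ta hd len N k J P R vs E cs L) (hs : ∀ p ∈ cs, p.1 ≤ D)
    (hP : ∀ s ≤ D, P s = P' s) : LvOK ta hd len N k J P' R vs E cs L := by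
  have a : ∀ e j, KapC P cs L e j ↔ KapC P' cs L e j := fun e j =>
    and_congr_right fun h1 => by
      have := sc_le h hs h1
      rw [hP _ this, hP _ (show L.sc.get j - 1 ≤ D by omega)]
  exact { h with
    obs := fun o => by simpa only [← a] using h.obs o
    olen := fun o ho => by rw [← hP _ (osc_le h hs ho)]; exact h.olen o ho }

theorem front_arith {b D m n c t1 t2 t3 : ℕ} (h1 : t1 ≤ 130 * (D + 1) * (b + 1) ^ 2 * (m + 1))
    (h2 : t2 ≤ D) (h3 : t3 ≤ 40 * ((D + 1) * (b + 1) + 1) ^ 2 * (n + m + 1)) (l1 : n ≤ 2 * m)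
    (l2 : c ≤ (D + 1) * (b + 1) * (2 * m)) :
    m + (t1 + (t2 + (t3 + (c + 0)))) ≤ 300 * ((D + 1) * (b + 1) + 1) ^ 2 * (m + 1) := by
  obtain ⟨J, hJ⟩ : ∃ J, J = (D + 1) * (b + 1) := ⟨_, rfl⟩
  have e1 : (D + 1) * (b + 1) ^ 2 ≤ (J + 1) ^ 2 := by
    have : (D + 1) * (b + 1) ^ 2 ≤ J ^ 2 := by
      rw [hJ, mul_pow]
      exact Nat.mul_le_mul_right _ (by nlinarith)
    nlinarith
  have e2 : D + 1 ≤ J := by rw [hJ]; nlinarith
  rw [← hJ] at l2 h3 ⊢
  have e3 : t1 ≤ 130 * ((J + 1) ^ 2 * (m + 1)) := h1.trans (by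
    rw [mul_assoc 130, mul_assoc 130]
    exact Nat.mul_le_mul_left _ (Nat.mul_le_mul_right _ e1))
  have e4 : t3 ≤ 120 * ((J + 1) ^ 2 * (m + 1)) := h3.trans (by
    have : (J + 1) ^ 2 * (n + m + 1) ≤ (J + 1) ^ 2 * (3 * (m + 1)) :=
      Nat.mul_le_mul_left _ (by omega)
    linarith)
  have e5 : (J + 1) * (m + 1) ≤ (J + 1) ^ 2 * (m + 1) :=
    Nat.mul_le_mul_right _ (by nlinarith)
  have e6 : J ≤ J * (m + 1) := Nat.le_mul_of_pos_right _ (by omega)
  have e7 : J * (2 * m) ≤ 2 * (J * (m + 1)) := by nlinarith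
  rw [add_mul, one_mul] at e5
  rw [mul_assoc 300]
  omega

theorem frontP_tri {lev : LevI → M LV} {c : Cx} {b D N k X : ℕ} {it : Arr RA} {G : List ℕ}
    (hl : ∀ (ta hd len : ℕ → ℕ) (N k J : ℕ) (P : Arr ℕ) (R : ℕ → ℕ) (vs : List ℕ) (G : List WE)
      (cs : List (ℕ × Cl)), In ta hd len N J R vs G cs → 1 ≤ k → (cs.length + 1) * N ≤ c.B →
      cs.length ≤ c.B → Tri c (lev (N, k, P, vs, G, cs)) fun L t =>
        LvOK ta hd len N k J P.get R vs G cs L ∧
          t ≤ 40 * (J + 1) ^ 2 * (vs.length + G.length + 1))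
    (hG : G.Nodup) (hX : ∀ z ∈ G, fta it.get z < N ∧ fhd it.get z < N ∧ fln it.get z ≤ X)
    (hk : 1 ≤ k) (hN : 1 ≤ N) (hb : 3 * G.length ≤ 2 ^ b)
    (hB : 2 ^ (b + 2) + (8 * b + 16) * PS b D + X + D ≤ c.B)
    (hB' : ((D + 1) * (b + 1) * (2 * G.length) + 1) * N ≤ c.B) :
    Tri c (frontP lev b D N k it G) fun r t => ∃ vs cs, r.1 = cs.length ∧
      MCov b D (G.map (we it.get)) vs cs ∧
      In (fta it.get) (fhd it.get) (fln it.get) N ((D + 1) * (b + 1)) (fun s => PS b (s + 1) / 2)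
        vs (G.map (we it.get)) cs ∧
      LvOK (fta it.get) (fhd it.get) (fln it.get) N k ((D + 1) * (b + 1)) (PS b)
        (fun s => PS b (s + 1) / 2) vs (G.map (we it.get)) cs r.2 ∧
      t ≤ 300 * ((D + 1) * (b + 1) + 1) ^ 2 * (G.length + 1) := by
  rw [frontP, Tri_bind, Tri_mapP]
  refine (mcov_tri (L := X) (by simpa [we] using fun z hz => (hX z hz).2.2) (by simpa using hb)
    hB).bind ?_
  rintro ⟨vs, cs⟩ t1 ⟨hM, h1⟩
  refine (psP_tri (by nlinarith [Nat.zero_le (2 ^ (b + 2)), PS_pos b D])).bind ?_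
  rintro PA t2 ⟨hP, h2⟩
  have hI : In (fta it.get) (fhd it.get) (fln it.get) N ((D + 1) * (b + 1))
      (fun s => PS b (s + 1) / 2) vs (G.map (we it.get)) cs := by
    refine ⟨hM.nodup, fun v hv => ?_, fun e he => ⟨(hM.mem _).2 ⟨e, he, Or.inl rfl⟩,
      (hM.mem _).2 ⟨e, he, Or.inr rfl⟩⟩, fun e he => ?_, ?_, fun p hp => ⟨hM.sub p hp, ?_⟩, hM.all⟩
    · obtain ⟨e, he, h⟩ := (hM.mem v).1 hv
      obtain ⟨z, hz, rfl⟩ := List.mem_map.1 he
      have := hX z hz
      rcases h with rfl | rfl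
      exacts [this.1, this.2.1]
    · obtain ⟨z, -, rfl⟩ := List.mem_map.1 he
      exact ⟨rfl, rfl, rfl⟩
    · simpa [we, Function.comp_def] using hG
    · obtain ⟨d, d1, d2, d3⟩ := hM.tree p hp
      exact ⟨d, d1, d2, fun v hv => by have := d3 v hv; omega⟩
  have l1 : vs.length ≤ 2 * G.length := by simpa using hM.len
  have l2 : cs.length ≤ (D + 1) * (b + 1) * (2 * G.length) :=
    hM.length.trans (Nat.mul_le_mul_left _ l1)
  have l3 : (cs.length + 1) * N ≤ c.B := (Nat.mul_le_mul_right _ (by omega)).trans hB'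
  have l4 : cs.length ≤ c.B := by nlinarith
  refine (hl _ _ _ N k _ PA _ vs _ cs hI hk l3 l4).bind ?_
  rintro L t3 ⟨hL, h3⟩
  simp only [Tri_bind, Tri_lenP, Tri_pure]
  refine ⟨l4, vs, cs, rfl, hM, hI, lvOK_congr hL hM.sc hP, ?_⟩
  simp only [List.length_map] at h1 h3
  exact front_arith h1 h2 h3 l1 l2

/-! ### The last level -/

theorem sum_countP_le (f : WE → ℕ) (E : List WE) {l : List ℕ} (hl : l.Nodup) :
    (l.map fun u => E.countP fun e => f e = u).sum ≤ E.length := by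
  induction E with
  | nil => simp
  | cons e E ih =>
    simp only [List.countP_cons, List.sum_map_add, List.length_cons, decide_eq_true_eq]
    have : (l.map fun u => if f e = u then 1 else 0).sum ≤ 1 := by
      rw [← List.sum_toFinset _ hl]
      simp only [Finset.sum_ite_eq]
      split_ifs <;> omega
    omega

theorem vol_le (hI : In ta hd len N J R vs E cs) {p : ℕ × Cl} (hp : p ∈ cs) :
    vol E p.2 ≤ 2 * E.length + vs.length := by
  obtain ⟨h1, D, h2, -⟩ := hI.cl p hp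
  have n : p.2.vs.Nodup := h2.nodup
  have a := sum_countP_le (fun e => e.1) E n
  have b := sum_countP_le (fun e => e.2.1) E n
  have c := (List.subperm_of_subset n h1).length_le
  unfold vol wt
  simp only [List.sum_map_add, List.map_const', List.sum_replicate, smul_eq_mul, mul_one]
  omega

/-- If there is no heavy cluster, all objects are loops. -/
theorem loops (hI : In ta hd len N J R vs E cs) (h : LvOK ta hd len N k J P R vs E cs L)
    (hk : 2 * E.length + vs.length < k) {o : Ob} (ho : o ∈ L.obs) : L.a0 o = L.b0 o := by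
  have lt : ∀ {j u}, Mem cs j u → u < N := fun ⟨p, hp, hu⟩ =>
    hI.lt _ ((hI.cl p (List.mem_of_getElem? hp)).1 _ hu)
  have hv : ∀ {j u}, Mem cs j u → L.hv.get j = false := fun {j u} ⟨p, hp, _⟩ => by
    have := vol_le hI (List.mem_of_getElem? hp)
    rw [← Bool.not_eq_true, (h.info j p hp).2.2]
    omega
  have r : ∀ {j u}, Mem cs j u → L.F.r (j * L.N + u) % L.N = L.ctr.get j := fun {j u} hm => by
    have a := lt hm
    have e1 : (j * N + u) / N = j := by
      rw [Nat.add_comm, Nat.add_mul_div_right _ _ (by omega), Nat.div_eq_of_lt a, Nat.zero_add]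
    have e2 : (j * N + u) % N = u := Nat.mul_add_mod_of_lt a
    have := h.light (j * N + u) ((h.mem _).2 (by rwa [e1, e2])) (by rw [e1]; exact hv hm)
    rw [h.N_eq, this, e1]
  rcases (h.obs o).1 ho with ⟨e, -, j, hj, rfl⟩ | ⟨u, j, j', hj, h1, -, rfl⟩ | ⟨u, j, j', hj, -, rfl⟩
  · exact (r hj.1).trans (r hj.2.1).symm
  · rw [hv hj.1] at h1; cases h1
  · exact (r hj.2.1).trans (r hj.2.2.1).symm

end Vale.Agent.P305BD
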