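import Vale.Agent.P305BA.Par

/-!
# Building a level: the choice of the exponent
-/

namespace Vale.Agent.P305BD

open Vale.Agent.P305BA
open Vale.Agent.P305CV (PS)

/-- The bound for the numbers. -/
def tw (p : Pr) : ℕ := 2 ^ p.b
/-- The number of scales. -/
def dn (p : Pr) : ℕ := Dn p.b
/-- The number of clusters of a vertex. -/
def jn (p : Pr) : ℕ := Jn p.b
/-- The largest scale. -/
def ps (p : Pr) : ℕ := PS (p.b + 2) (Dn p.b)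
/-- The small bound. -/
def ga (c : ℕ) (p : Pr) : ℕ := (p.b + 2) ^ (c * p.d)
/-- The large bound. -/
def la (c : ℕ) (p : Pr) : ℕ := ((p.b + 2) * p.k) ^ (c * p.d)

@[fun_prop] theorem sm_ga (c : ℕ) : Sm (ga c) := (show Po fun p => p.b + 2 by fun_prop).powd c
@[fun_prop] theorem lg_ga (c : ℕ) : Lg (ga c) := (sm_ga c).lg
@[fun_prop] theorem wd_ga (c : ℕ) : Wd (ga c) := (sm_ga c).wd
@[fun_prop] theorem lg_la (c : ℕ) : Lg (la c) :=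
  (show Pk fun p => (p.b + 2) * p.k by fun_prop).powd c
@[fun_prop] theorem wd_tw : Wd tw := Wd.two
@[fun_prop] theorem wd_dn : Wd dn := po_Dn.wd
@[fun_prop] theorem sm_dn : Sm dn := po_Dn.sm
@[fun_prop] theorem wd_jn : Wd jn := po_Jn.wd
@[fun_prop] theorem sm_jn : Sm jn := po_Jn.sm
@[fun_prop] theorem lg_jn : Lg jn := po_Jn.lg
@[fun_prop] theorem wd_ps : Wd ps := wd_PS 0

attribute [local fun_prop] Sm.pow Lg.pow

/-- The bound for the words. -/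
def wB (c : ℕ) (p : Pr) : ℕ :=
  (16 * tw p + (8 * (p.b + 2) + 16) * ps p + tw p + dn p) + (jn p * (2 * tw p) + 1) * (tw p + 1) +
    3 * (p.k + 1) * (ga c p + 1) * (p.k * tw p) + 3 * (jn p * jn p) * tw p + (16 * (p.b + 2) + 16)

/-- The bound for the loss. -/
def gB (c : ℕ) (p : Pr) : ℕ :=
  (2 * dn p + 1 + 4 * (p.b + 2 + 1) * dn p) * (12 * (ga c p + 1) * (16 * (p.b + 2) + 16) ^ 2) +
    (2 * jn p + 2)

/-- The bound for the time. -/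
def tB (c : ℕ) (p : Pr) : ℕ :=
  300 * (jn p + 1) ^ 2 + (10 * (p.k + 1) + 1) * la c p +
    (13 * (3 * (p.k + 1) * (ga c p + 1) + 1) ^ 2 + 1) * (3 * jn p ^ 2) + 8 * (2 * jn p + 1) +
    7 * (jn p + 1) * (2 * jn p)

/-- The bound for the lists. -/
def pB (c : ℕ) (p : Pr) : ℕ :=
  108 * (jn p + 1) ^ 4 * (p.k + 1) ^ 4 * (ga c p + 1) ^ 2 * (la c p + 1)

theorem wd_wB (c : ℕ) : Wd (wB c) := by unfold wB; fun_prop
theorem sm_gB (c : ℕ) : Sm (gB c) := by unfold gB; fun_prop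
theorem lg_tB (c : ℕ) : Lg fun p => tB c p + pB c p := by unfold tB pB; fun_prop

/-- The numerical facts. -/
structure Nums (c c' B b d k : ℕ) : Prop where
  w1 : 16 * (b + 2) + 16 ≤ B
  w2 : 2 ^ b + 1 ≤ B
  w3 : 2 ^ (b + 2 + 2) + (8 * (b + 2) + 16) * PS (b + 2) (Dn b) + 2 ^ b + Dn b ≤ B
  w4 : (Jn b * (2 * 2 ^ b) + 1) * (2 ^ b + 1) ≤ B
  w5 : 3 * (k + 1) * ((b + 2) ^ (c * d) + 1) * (k * 2 ^ b) ≤ B
  w6 : 3 * Jn b ^ 2 * 2 ^ b ≤ B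
  w7 : 2 ^ (c * (b + 1)) ≤ B
  g1 : (2 * Dn b + 1 + 4 * (b + 2 + 1) * Dn b) *
    (12 * ((b + 2) ^ (c * d) + 1) * (16 * (b + 2) + 16) ^ 2) ≤ (b + 2) ^ (c' * d)
  g2 : 2 * Jn b + 2 ≤ (b + 2) ^ (c' * d)
  g3 : (b + 2) ^ (c * d) ≤ (b + 2) ^ (c' * d)
  p1 : 108 * (Jn b + 1) ^ 4 * (k + 1) ^ 4 * ((b + 2) ^ (c * d) + 1) ^ 2 *
    (((b + 2) * k) ^ (c * d) + 1) ≤ ((b + 2) * k) ^ (c' * d)
  t1 : 300 * (Jn b + 1) ^ 2 + (10 * (k + 1) + 1) * ((b + 2) * k) ^ (c * d) +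
    (13 * (3 * (k + 1) * ((b + 2) ^ (c * d) + 1) + 1) ^ 2 + 1) * (3 * Jn b ^ 2) +
    8 * (2 * Jn b + 1) + 7 * (Jn b + 1) * (2 * Jn b) ≤ ((b + 2) * k) ^ (c' * d)

theorem exists_c (c : ℕ) : ∃ c', ∀ (p : Pr) (B : ℕ), p.OK → 2 ^ (c' * (p.b + 1)) ≤ B →
    Nums c c' B p.b p.d p.k := by
  obtain ⟨c1, h1⟩ := (wd_wB c).out
  obtain ⟨c2, h2⟩ := (sm_gB c).out
  obtain ⟨c3, h3⟩ := (lg_tB c).out
  refine ⟨c + c1 + c2 + c3, fun p B hp hB => ?_⟩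
  have a1 := (h1 _ (by omega) p hp).trans hB
  have a2 := h2 (c + c1 + c2 + c3) (by omega) p hp
  have a3 := h3 (c + c1 + c2 + c3) (by omega) p hp
  have e : (2 : ℕ) ^ (p.b + 2 + 2) = 16 * 2 ^ p.b := by ring
  have e1 : 1 ≤ 2 ^ p.b := Nat.one_le_two_pow
  have le : ∀ {x y z : ℕ}, x + y ≤ z → x ≤ z ∧ y ≤ z := fun h => by omega
  obtain ⟨a1, w1⟩ := le a1
  obtain ⟨a1, w6⟩ := le a1
  obtain ⟨a1, w5⟩ := le a1
  obtain ⟨w3, w4⟩ := le a1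
  refine ⟨w1, ?_, e ▸ w3, w4, w5, by rw [sq]; exact w6, le_trans (Nat.pow_le_pow_right (by omega)
    (Nat.mul_le_mul_right _ (by omega))) hB, (le a2).1, (le a2).2,
    Nat.pow_le_pow_right (by omega) (Nat.mul_le_mul_right _ (by omega)), (le a3).2, (le a3).1⟩
  have := (le (le (le w3).1).1).1
  unfold tw at this
  omega

theorem time_arith {q m J k γ Λ t1 t2 t3 s p o ns nc cd : ℕ} (hq : 1 ≤ q)
    (h1 : t1 ≤ 300 * (J + 1) ^ 2 * (m + 1)) (h2 : t2 + 6 * s ≤ q * Λ * (m + 1)) (hp : p ≤ 6 * s)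
    (h3 : t3 ≤ 13 * (3 * (k + 1) * (γ + 1) + 1) ^ 2 * o + 10 * (k + 1) * p + 8 * (m + ns) +
      7 * (J + 1) * nc) (ho : o ≤ 3 * J ^ 2 * m) (hn : ns ≤ J * (2 * m)) (hc : nc ≤ J * (2 * m))
    (hd : cd ≤ o) : t1 + (t2 + t3) + p + cd ≤ q * (300 * (J + 1) ^ 2 + (10 * (k + 1) + 1) * Λ +
      (13 * (3 * (k + 1) * (γ + 1) + 1) ^ 2 + 1) * (3 * J ^ 2) + 8 * (2 * J + 1) +
      7 * (J + 1) * (2 * J)) * (m + 1) := by
  obtain ⟨A, hA⟩ : ∃ A, A = 13 * (3 * (k + 1) * (γ + 1) + 1) ^ 2 := ⟨_, rfl⟩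
  obtain ⟨Z, hZ⟩ : ∃ Z, Z = 300 * (J + 1) ^ 2 + (A + 1) * (3 * J ^ 2) + 8 * (2 * J + 1) +
    7 * (J + 1) * (2 * J) := ⟨_, rfl⟩
  rw [← hA] at h3 ⊢
  have a1 : (A + 1) * o ≤ (A + 1) * (3 * J ^ 2 * m) := Nat.mul_le_mul_left _ ho
  have a2 : 7 * (J + 1) * nc ≤ 7 * (J + 1) * (J * (2 * m)) := Nat.mul_le_mul_left _ hc
  have a3 : 10 * (k + 1) * p ≤ 10 * (k + 1) * (q * Λ * (m + 1)) :=
    Nat.mul_le_mul_left _ (by omega)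
  have a4 : t1 + (A + 1) * o + 8 * (m + ns) + 7 * (J + 1) * nc ≤ Z * (m + 1) := by
    rw [hZ]
    nlinarith [Nat.zero_le ((A + 1) * (3 * J ^ 2)), Nat.zero_le (7 * (J + 1) * (2 * J))]
  have a5 : Z * (m + 1) ≤ q * (Z * (m + 1)) := Nat.le_mul_of_pos_left _ hq
  calc _ ≤ q * (Z * (m + 1)) + (10 * (k + 1) + 1) * (q * Λ * (m + 1)) := by
        rw [add_mul (10 * (k + 1)), add_mul A] at *
        omega
    _ = _ := by rw [hZ]; ring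

end Vale.Agent.P305BD
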