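import Vale.Agent.P305BD.Front
import Vale.Agent.P305BD.Num
import Vale.Agent.P305W.Glue
import Vale.Agent.P305RB.Fin

/-!
# Building a level: the assembly
-/

namespace Vale.Agent.P305BD

open Vale.Agent.P305E Vale.Agent.P305C Vale.Agent.P305M Vale.Agent.P305Q Vale.Agent.P305Y
open Vale.Agent.P305U Vale.Agent.P305X Vale.Agent.P305BA
open Vale.Agent.P305RB (tabsP impl_tabsP Ctx)

/-- The program that builds a level. -/
noncomputable def buildP (lev : LevI → M LV)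
    (mid : (ℕ × ℕ × ℕ × ℕ × ℕ) × Sto × LV → M (Sto × List ℕ × List ℕ × Arr SW))
    (x : ℕ × ℕ × ℕ × ℕ × ℕ × Sto × List ℕ) : M (Sto × Lvl) :=
  dnP x.1 >>= fun D => num (x.1 + 2) >>= fun b => pow2 x.1 >>= fun t => num (t + 1) >>= fun N =>
    frontP lev b D N x.2.2.2.1 x.2.2.2.2.2.1.1 x.2.2.2.2.2.2 >>= fun r =>
      mid ((x.1, x.2.1, x.2.2.1, x.2.2.2.1, N), x.2.2.2.2.2.1, r.2) >>= fun o =>
        tabsP x.2.2.2.2.1 r.1 o.1 x.2.2.2.2.2.2 o.2.1 o.2.2.1 r.2 o.2.2.2 >>= fun T => pure (o.1, T)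

theorem impl_tabsP' {α : Type} [Rep α] {κ n : α → ℕ} {S : α → Sto} {G P K : α → List ℕ}
    {V : α → LV} {Q : α → Arr SW} (h1 : Pure κ) (h2 : Pure n) (h3 : Pure S) (h4 : Pure G)
    (h5 : Pure P) (h6 : Pure K) (h7 : Pure V) (h8 : Pure Q) :
    Impl fun a => tabsP (κ a) (n a) (S a) (G a) (P a) (K a) (V a) (Q a) :=
  Impl.comp (g := fun a => ((κ a, n a, S a), (G a, P a, K a), V a, Q a)) impl_tabsP (by fun_prop)

theorem impl_buildP {lev : LevI → M LV}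
    {mid : (ℕ × ℕ × ℕ × ℕ × ℕ) × Sto × LV → M (Sto × List ℕ × List ℕ × Arr SW)} (hl : Impl lev)
    (hm : Impl mid) : Impl (buildP lev mid) := by
  unfold buildP
  refine Impl.bind (by fun_prop) (Impl.bind (by fun_prop) (Impl.bind (by fun_prop)
    (Impl.bind (by fun_prop) (Impl.bind (impl_frontP hl ?_ ?_ ?_ ?_ ?_ ?_) (Impl.bind (by fun_prop)
    (Impl.bind (impl_tabsP' ?_ ?_ ?_ ?_ ?_ ?_ ?_ ?_) (by fun_prop))))))) <;> fun_prop

theorem obs_le {J m v o : ℕ} (h : o ≤ J * m + J ^ 2 * v) (hv : v ≤ 2 * m) : o ≤ 3 * J ^ 2 * m := by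
  have a1 := Nat.mul_le_mul_right m (Nat.le_self_pow (n := 2) (by omega) J)
  have a2 := Nat.mul_le_mul_left (J ^ 2) hv
  nlinarith

/-- **The block BUILD** from the blocks LEVEL and MID. -/
theorem build_of (hL : LEVEL) (hM : MID) : BUILD := by
  obtain ⟨lev, il, hl⟩ := hL
  obtain ⟨mid, c, im, hm⟩ := hM
  obtain ⟨c', hn⟩ := exists_c c
  refine ⟨buildP lev mid, c', impl_buildP il im, fun B e b d q k κ S G hG hg hz hS hκ k1 k2 d1 d2 d3
    q1 q2 he hB => ?_⟩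
  have n : Nums c c' B b d k := hn ⟨b, d, q, k⟩ B ⟨k1, k2, d1, d2, d3, q2⟩ hB
  have q0 : 1 ≤ q := by
    by_contra h0
    obtain rfl : q = 0 := by omega
    rw [zero_pow (by omega)] at q1
    exact absurd q1 (not_le.2 (by positivity))
  have p0 : b < 2 ^ b := Nat.lt_two_pow_self
  have w1 := n.w1
  have w2 := n.w2
  unfold buildP
  dsimp only
  refine Vt.tbind (cn := true) (dnP_tri w1) ?_
  rintro _ _ ⟨rfl, rfl⟩
  refine Vt.num_bind (by omega) (Vt.need (by omega) (Vt.pure_bind (Vt.num_bind w2 ?_)))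
  refine Vt.tbind (cn := true) (frontP_tri (X := 2 ^ b) (hl ⟨B, true⟩) hG (fun z h => ?_) k1
    (by omega) (by rw [pow_add]; omega) n.w3 (le_trans (Nat.mul_le_mul_right _ (Nat.add_le_add_right
      (Nat.mul_le_mul_left _ (Nat.mul_le_mul_left 2 hg)) 1)) n.w4)) ?_
  · obtain ⟨-, a1, a2, -, a3, -⟩ := hz z h
    exact ⟨Nat.lt_succ_of_le a1, Nat.lt_succ_of_le a2, a3⟩
  rintro ⟨_, V⟩ t1 ⟨vs, cs, rfl, hC, hI, hV, h1⟩
  have l1 : vs.length ≤ 2 * G.length := by simpa using hC.len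
  have l2 : cs.length ≤ Jn b * (2 * G.length) := hC.length.trans (Nat.mul_le_mul_left _ l1)
  have l3 : V.ns.length ≤ Jn b * (2 * G.length) := hV.ns_len.trans (Nat.mul_le_mul_left _ l1)
  have l4 : V.obs.length ≤ 3 * Jn b ^ 2 * G.length :=
    obs_le (by simpa only [List.length_map, Jn] using hV.obs_len) l1
  refine (hm B e b d q k _ (Jn b) S G _ _ vs cs V d1 d3 q1 q2 k1 k2 he (by rw [pow_succ]; omega) (Jn_pos b)
    (Jn_le b) hg hS l1 (fun z h => ⟨(hz z h).1, (hz z h).2.2.2.2⟩)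
    (fun p hp => (hC.sc p hp).trans ((Dn_le b).trans p0)) hI hV n.w7).bind ?_
  rintro ⟨S', P, K, Q⟩ t2 ⟨Sk, Pi, own, hR, hP, hk, h2⟩
  have X : Ctx S S' G _ k (Jn b) _ _ vs cs V _ _ Sk Pi P K Q.get own :=
    ⟨hG, fun z h => (hz z h).1, hV, hR, hP⟩
  refine Vt.tbind (cn := true) (X.tabs ⟨B, true⟩ κ cs.length k1 (fun z h => (hz z h).2.2.2.2)
    n.w5 (l4.trans ((Nat.mul_le_mul_left _ hg).trans n.w6))) ?_
  rintro L t3 ⟨hT, h3⟩
  refine Vt.pure ⟨X.lvlOK hT n.g2 n.p1 (P305W.sound_of (Lm := 2 ^ b) hI hV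
    (fun _ _ => rfl) hC (fun s _ => Nat.mul_div_le _ _) (fun z h => ⟨(hz z h).1, (hz z h).2.2.2.1,
      (hz z h).2.2.2.2.1⟩) (le_trans ?_ (le_PS b)) (Dn_pos b) hR hP hT n.g1), ?_,
    fun h4 => ?_, ?_⟩
  · rw [show 2 ^ (2 * b + 1) = 2 * 2 ^ b * 2 ^ b by ring]
    exact Nat.mul_le_mul_right _ (by omega)
  · rw [hT.eK]
    exact (Nat.mul_le_mul_left _ (Nat.pow_le_pow_left hP.klen 2)).trans
      (hk.trans (Nat.pow_le_pow_left (Nat.mul_le_mul_right _ n.g3) 2))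
  · have a : Sk = [] := List.eq_nil_iff_forall_not_mem.2 fun s hs => (hR.sub s hs).2
      (loops hI hV (by rw [List.length_map]; omega) (obj_mem (hR.sub s hs).1))
    have := hP.klen
    rw [a] at this
    rw [hT.eK]
    exact List.eq_nil_of_length_eq_zero (by simpa using this)
  · rw [hT.eP]
    have := (time_arith q0 h1 h2 hP.plen h3 l4 l3 l2 hT.lcand).trans
      (Nat.mul_le_mul_right _ (Nat.mul_le_mul_left _ n.t1))
    simpa only [Nat.zero_add, Nat.add_zero] using this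

end Vale.Agent.P305BD
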