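import Vale.Agent.P305Y.Defs

/-!
# Building a level: walks in programs, new items, candidates
-/

namespace Vale.Agent.P305BD

open Vale.Agent.P305E Vale.Agent.P305C Vale.Agent.P305M Vale.Agent.P305Q Vale.Agent.P305Y

/-- The reversed walk. -/
def rvP (w : SW) : M SW := foldP (fun a c => (c.1, !c.2) :: a) [] w

/-- The length of a walk. -/
def wlP (it : Arr RA) (w : SW) : M ℕ := sumP (fun c => (it.get c.1).2.2.1) w

/-- The gradient of a walk. -/
def wgP (it : Arr RA) (w : SW) : M ℤ :=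
  foldM (fun s c => inum (s + if c.2 = true then (it.get c.1).2.2.2 else -(it.get c.1).2.2.2)) 0 w

section impl
variable {α : Type} [Rep α]

@[fun_prop] theorem impl_rvP {w : α → SW} (hw : Pure w) : Impl fun a => rvP (w a) := by
  unfold rvP; fun_prop

@[fun_prop] theorem impl_wlP {it : α → Arr RA} {w : α → SW} (hi : Pure it) (hw : Pure w) :
    Impl fun a => wlP (it a) (w a) := by
  unfold wlP; fun_prop

@[fun_prop] theorem impl_wgP {it : α → Arr RA} {w : α → SW} (hi : Pure it) (hw : Pure w) :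
    Impl fun a => wgP (it a) (w a) := by
  unfold wgP; fun_prop

end impl

variable {c : Cx}

theorem foldl_rv (w a : SW) : w.foldl (fun a c => (c.1, !c.2) :: a) a = rev w ++ a := by
  induction w generalizing a with
  | nil => simp
  | cons x w ih => simp [ih]

@[simp] theorem Tri_rvP (w : SW) (Q : SW → ℕ → Prop) : Tri c (rvP w) Q ↔ Q (rev w) w.length := by
  rw [rvP, Tri_foldP, foldl_rv, List.append_nil]

@[simp] theorem Tri_wlP (it : Arr RA) (w : SW) (Q : ℕ → ℕ → Prop) :
    Tri c (wlP it w) Q ↔ wlen it.get w ≤ c.B ∧ Q (wlen it.get w) w.length := by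
  simp [wlP, wlen, nsum]

theorem wlen_le {it : ℕ → RA} {w : SW} {X : ℕ} (h : ∀ x ∈ w, (it x.1).2.2.1 ≤ X) :
    wlen it w ≤ w.length * X := by
  induction w with
  | nil => simp
  | cons x w ih =>
    have a := h x (by simp)
    have b := ih fun y hy => h y (by simp [hy])
    simp only [wlen_cons, List.length_cons]
    nlinarith

theorem wg_le {it : ℕ → RA} {w : SW} {X : ℕ} (h : ∀ x ∈ w, (it x.1).2.2.2.natAbs ≤ X) :
    (wg it w).natAbs ≤ w.length * X := by
  induction w with
  | nil => simp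
  | cons x w ih =>
    have a := h x (by simp)
    have b := ih fun y hy => h y (by simp [hy])
    have e := Int.natAbs_add_le (sg x.2 * (it x.1).2.2.2) (wg it w)
    rw [Int.natAbs_mul, natAbs_sg] at e
    simp only [wg_cons, List.length_cons]
    nlinarith

theorem wgP_tri {it : Arr RA} {w : SW} {X : ℕ} (h : ∀ x ∈ w, (it.get x.1).2.2.2.natAbs ≤ X)
    (hB : w.length * X ≤ c.B) : Tri c (wgP it w) fun s t => s = wg it.get w ∧ t = w.length := by
  refine Tri.foldM (fun pre (s : ℤ) t => s = wg it.get pre ∧ t = pre.length) ⟨rfl, rfl⟩ ?_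
  rintro pre x rest s t e ⟨rfl, rfl⟩
  have e1 : (wg it.get pre + if x.2 = true then (it.get x.1).2.2.2 else -(it.get x.1).2.2.2) =
      wg it.get (pre ++ [x]) := by
    cases hx : x.2 <;> simp [hx]
  have a := wg_le (it := it.get) (w := pre ++ [x]) (X := X) fun y hy => h y (by
    rw [e]; simp only [List.mem_append, List.mem_cons] at hy ⊢; simp at hy; tauto)
  have b : (pre ++ [x]).length ≤ w.length := by rw [e]; simp
  rw [Tri_inum, e1]
  exact ⟨a.trans ((Nat.mul_le_mul_right _ b).trans hB), rfl, by simp⟩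

theorem wlen_congr {it it' : ℕ → RA} {w : SW} (h : ∀ x ∈ w, it' x.1 = it x.1) :
    wlen it' w = wlen it w := by
  induction w with
  | nil => rfl
  | cons x w ih => simp [h x (by simp), ih fun y hy => h y (by simp [hy])]

theorem wg_congr {it it' : ℕ → RA} {w : SW} (h : ∀ x ∈ w, it' x.1 = it x.1) :
    wg it' w = wg it w := by
  induction w with
  | nil => rfl
  | cons x w ih => simp [h x (by simp), ih fun y hy => h y (by simp [hy])]

/-! ### New items -/

/-- A new item: tail, head, constituents. -/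
abbrev NI : Type := ℕ × ℕ × SW

/-- The data of a new item. -/
def NI.ra (it : ℕ → RA) (p : NI) : RA := (p.1, p.2.1, wlen it p.2.2, wg it p.2.2)

/-- The new items `l` are appended to the store. -/
def addP (S : Sto) (l : List NI) : M Sto :=
  foldM (fun (s : Sto) p => wlP S.1 p.2.2 >>= fun a => wgP S.1 p.2.2 >>= fun g =>
    num (s.2.2 + 1) >>= fun n =>
    pure (s.1.set s.2.2 (p.1, p.2.1, a, g), s.2.1.set s.2.2 p.2.2, n)) S l

@[fun_prop] theorem impl_addP {α : Type} [Rep α] {S : α → Sto} {l : α → List NI} (hS : Pure S)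
    (hl : Pure l) : Impl fun a => addP (S a) (l a) := by
  unfold addP; fun_prop

/-- The store `S'` is `S` with the new items `l`. -/
structure Added (S S' : Sto) (l : List NI) : Prop where
  nx : S'.2.2 = S.2.2 + l.length
  old : ∀ z < S.2.2, S'.1.get z = S.1.get z ∧ S'.2.1.get z = S.2.1.get z
  new : ∀ i (h : i < l.length), S'.1.get (S.2.2 + i) = NI.ra S.1.get l[i] ∧
    S'.2.1.get (S.2.2 + i) = l[i].2.2

theorem addP_tri {S : Sto} {l : List NI} {k X : ℕ} (hk : ∀ p ∈ l, p.2.2.length ≤ k)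
    (hX : ∀ p ∈ l, ∀ x ∈ p.2.2, (S.1.get x.1).2.2.1 ≤ X ∧ (S.1.get x.1).2.2.2.natAbs ≤ X)
    (hB : k * X ≤ c.B) (hn : S.2.2 + l.length ≤ c.B) :
    Tri c (addP S l) fun S' t => Added S S' l ∧ t ≤ l.length * (2 * k + 1) := by
  refine Tri.foldM (fun pre (s : Sto) t => Added S s pre ∧ t ≤ pre.length * (2 * k + 1))
    ⟨⟨rfl, fun _ _ => ⟨rfl, rfl⟩, fun i h => absurd h (by simp)⟩, by simp⟩ ?_
  rintro pre p rest s t e ⟨hA, ht⟩
  have hp : p ∈ l := by simp [e]
  have a1 := hk p hp
  have a2 : p.2.2.length * X ≤ c.B := (Nat.mul_le_mul_right _ a1).trans hB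
  have a3 : pre.length + 1 ≤ l.length := by rw [e]; simp
  have a4 := hA.nx
  rw [Tri_bind, Tri_wlP]
  refine ⟨(wlen_le fun x hx => (hX p hp x hx).1).trans a2,
    (wgP_tri (fun x hx => (hX p hp x hx).2) a2).bind ?_⟩
  rintro g t' ⟨rfl, rfl⟩
  simp only [Tri_bind, Tri_num, Tri_pure]
  refine ⟨by omega, ⟨by simp only [List.length_append, List.length_singleton]; omega,
    fun z hz => ?_, fun i hi => ?_⟩, ?_⟩
  · rw [Arr.get_set_ne _ (by omega), Arr.get_set_ne _ (by omega)]
    exact hA.old z hz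
  · by_cases h : i < pre.length
    · rw [Arr.get_set_ne _ (by omega), Arr.get_set_ne _ (by omega), List.getElem_append_left h]
      exact hA.new i h
    · obtain rfl : i = pre.length := by
        simp only [List.length_append, List.length_singleton] at hi; omega
      rw [← a4, Arr.get_set_self, Arr.get_set_self]
      simp [NI.ra]
  · simp only [List.length_append, List.length_singleton]
    nlinarith

/-! ### Candidates -/

/-- The closed walks with a large ratio, with the right orientation. -/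
def candP (it : Arr RA) (κ : ℕ) (l : List SW) : M (List SW) :=
  foldM (fun (acc : List SW) w => wlP it w >>= fun a => wgP it w >>= fun g =>
    if w.isEmpty = true then pure acc
    else if g + (κ : ℤ) * (a : ℤ) ≤ 0 then pure (w :: acc)
    else if -g + (κ : ℤ) * (a : ℤ) ≤ 0 then rvP w >>= fun w' => pure (w' :: acc)
    else pure acc) [] l

@[fun_prop] theorem impl_candP {α : Type} [Rep α] {it : α → Arr RA} {κ : α → ℕ}
    {l : α → List SW} (hi : Pure it) (hκ : Pure κ) (hl : Pure l) :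
    Impl fun a => candP (it a) (κ a) (l a) := by
  unfold candP; fun_prop

/-- The list of candidates `r` for the closed walks `l`. -/
structure Cands (it : ℕ → RA) (κ : ℕ) (l r : List SW) : Prop where
  len : r.length ≤ l.length
  mem : ∀ w ∈ r, (w ∈ l ∨ ∃ w' ∈ l, w = rev w') ∧ w ≠ [] ∧ wg it w + κ * wlen it w ≤ 0
  all : ∀ w ∈ l, w ∈ r ∨ rev w ∈ r ∨ |wg it w| ≤ κ * wlen it w

theorem candP_tri {it : Arr RA} {κ : ℕ} {l : List SW} {p X : ℕ} (hp : ∀ w ∈ l, w.length ≤ p)
    (hX : ∀ w ∈ l, ∀ x ∈ w, (it.get x.1).2.2.1 ≤ X ∧ (it.get x.1).2.2.2.natAbs ≤ X)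
    (hB : p * X ≤ c.B) :
    Tri c (candP it κ l) fun r t => Cands it.get κ l r ∧ t ≤ l.length * (3 * p + 1) := by
  refine Tri.foldM (fun pre (r : List SW) t => Cands it.get κ pre r ∧ t ≤ pre.length * (3 * p + 1))
    ⟨⟨le_rfl, by simp, by simp⟩, by simp⟩ ?_
  rintro pre w rest r t e ⟨hC, ht⟩
  have hw : w ∈ l := by simp [e]
  have a1 := hp w hw
  have a2 : w.length * X ≤ c.B := (Nat.mul_le_mul_right _ a1).trans hB
  have a3 := hC.len
  have k1 : ∀ r', r'.length ≤ r.length + 1 → (∀ x ∈ r, x ∈ r') →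
      (∀ x ∈ r', x ∈ r ∨ ((x = w ∨ x = rev w) ∧ x ≠ [] ∧ wg it.get x + κ * wlen it.get x ≤ 0)) →
      (w ∈ r' ∨ rev w ∈ r' ∨ |wg it.get w| ≤ κ * wlen it.get w) →
      Cands it.get κ (pre ++ [w]) r' := fun r' h1 h2 h3 h4 => by
    refine ⟨by simp; omega, fun x hx => ?_, fun x hx => ?_⟩
    · rcases h3 x hx with h | ⟨h, h'⟩
      · obtain ⟨h5 | ⟨y, hy, h5⟩, h6⟩ := hC.mem x h
        · exact ⟨Or.inl (by simp [h5]), h6⟩
        · exact ⟨Or.inr ⟨y, by simp [hy], h5⟩, h6⟩
      · exact ⟨h.elim (fun h => Or.inl (by simp [h])) fun h => Or.inr ⟨w, by simp, h⟩, h'⟩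
    · rcases List.mem_append.1 hx with hx | hx
      · exact (hC.all x hx).imp (h2 _) (Or.imp_left (h2 _))
      · obtain rfl : x = w := by simpa using hx
        exact h4
  have k2 : (pre ++ [w]).length * (3 * p + 1) = pre.length * (3 * p + 1) + 3 * p + 1 := by
    simp only [List.length_append, List.length_singleton]; ring
  rw [Tri_bind, Tri_wlP]
  refine ⟨(wlen_le fun x hx => (hX w hw x hx).1).trans a2,
    (wgP_tri (fun x hx => (hX w hw x hx).2) a2).bind ?_⟩
  rintro g t' ⟨rfl, rfl⟩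
  simp only [Tri_ite, Tri_pure, Tri_bind, Tri_rvP, List.isEmpty_iff]
  refine ⟨fun h0 => ⟨k1 r (by omega) (fun _ h => h) (fun _ h => Or.inl h) ?_, by omega⟩,
    fun h0 => ⟨fun h1 => ⟨k1 _ (by simp) (fun _ h => by simp [h]) (fun x hx => ?_) (by simp),
      by omega⟩, fun h1 => ⟨fun h2 => ⟨k1 _ (by simp) (fun _ h => by simp [h]) (fun x hx => ?_)
        (by simp), by omega⟩,
      fun h2 => ⟨k1 r (by omega) (fun _ h => h) (fun _ h => Or.inl h) ?_, by omega⟩⟩⟩⟩
  · simp [h0]
  · rcases List.mem_cons.1 hx with rfl | hx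
    · exact Or.inr ⟨Or.inl rfl, h0, h1⟩
    · exact Or.inl hx
  · rcases List.mem_cons.1 hx with rfl | hx
    · refine Or.inr ⟨Or.inr rfl, fun e => h0 ?_, by simpa using h2⟩
      have := congrArg List.length e
      simpa using this
    · exact Or.inl hx
  · refine Or.inr (Or.inr (abs_le.2 ⟨?_, ?_⟩)) <;> omega

end Vale.Agent.P305BD
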